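import Mathlib

namespace Vale.Agent.Lib.P110

open Polynomial Finset

/-- orthogonality of the characters of `ℤ/M` -/
lemma orth (M : ℕ) (ω : ℂ) (hprim : IsPrimitiveRoot ω M) (r s : ℕ) (hr : r < M) (hs : s < M) :
    ∑ j ∈ range M, (ω ^ r * (ω⁻¹) ^ s) ^ j = if r = s then (M : ℂ) else 0 := by
  have hM : M ≠ 0 := by omega
  have hω0 : ω ≠ 0 := hprim.ne_zero hM
  by_cases hrs : r = s
  · subst hrs
    have h1 : ω ^ r * (ω⁻¹) ^ r = 1 := by
      rw [← mul_pow, mul_inv_cancel₀ hω0, one_pow]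
    rw [if_pos rfl, Finset.sum_congr rfl (fun j _ => by rw [h1, one_pow])]
    simp
  · rw [if_neg hrs]
    set ζ := ω ^ r * (ω⁻¹) ^ s with hζ
    have hζ1 : ζ ≠ 1 := by
      intro h
      apply hrs
      apply hprim.pow_inj hr hs
      have h2 : ω ^ r = ζ * ω ^ s := by
        rw [hζ, mul_assoc, ← mul_pow, inv_mul_cancel₀ hω0, one_pow, mul_one]
      rw [h2, h, one_mul]
    have hζM : ζ ^ M = 1 := by
      rw [hζ, mul_pow, ← pow_mul, ← pow_mul, mul_comm r M, mul_comm s M, pow_mul, pow_mul,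
        hprim.pow_eq_one, inv_pow, hprim.pow_eq_one]
      simp
    rw [geom_sum_eq hζ1, hζM, sub_self, zero_div]

/-- discrete Parseval identity at the `M`-th roots of unity -/
lemma dft_parseval (M : ℕ) (ω : ℂ) (hprim : IsPrimitiveRoot ω M) (hnorm : ‖ω‖ = 1)
    (S : ℂ[X]) (hdeg : S.natDegree < M) :
    ∑ j ∈ range M, ‖S.eval (ω ^ j)‖ ^ 2 = M * ∑ i ∈ range M, ‖S.coeff i‖ ^ 2 := by
  have hconj : (starRingEnd ℂ) ω = ω⁻¹ := (Complex.inv_eq_conj hnorm).symm
  have key : ∀ x : ℂ, ((‖x‖ : ℝ) : ℂ) ^ 2 = x * (starRingEnd ℂ) x := by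
    intro x
    rw [Complex.mul_conj, Complex.normSq_eq_norm_sq]
    push_cast
    rfl
  apply Complex.ofReal_injective
  push_cast
  simp_rw [key]
  have hev : ∀ j : ℕ, S.eval (ω ^ j) = ∑ r ∈ range M, S.coeff r * (ω ^ j) ^ r :=
    fun j => eval_eq_sum_range' hdeg _
  have hterm : ∀ j : ℕ, S.eval (ω ^ j) * (starRingEnd ℂ) (S.eval (ω ^ j))
      = ∑ r ∈ range M, ∑ s ∈ range M,
          S.coeff r * (starRingEnd ℂ) (S.coeff s) * (ω ^ r * (ω⁻¹) ^ s) ^ j := by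
    intro j
    rw [hev j, map_sum, Finset.sum_mul_sum]
    apply sum_congr rfl; intro r _
    apply sum_congr rfl; intro s _
    rw [map_mul, map_pow, map_pow, hconj, mul_pow, ← pow_mul, ← pow_mul, ← pow_mul, ← pow_mul,
      mul_comm r j, mul_comm s j]
    ring
  simp_rw [hterm]
  rw [sum_comm]
  have h2 : ∀ r ∈ range M, ∑ j ∈ range M, ∑ s ∈ range M,
      S.coeff r * (starRingEnd ℂ) (S.coeff s) * (ω ^ r * (ω⁻¹) ^ s) ^ j
      = (M : ℂ) * (S.coeff r * (starRingEnd ℂ) (S.coeff r)) := by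
    intro r hr
    rw [sum_comm]
    have h3 : ∀ s ∈ range M, ∑ j ∈ range M,
        S.coeff r * (starRingEnd ℂ) (S.coeff s) * (ω ^ r * (ω⁻¹) ^ s) ^ j
        = if r = s then (M : ℂ) * (S.coeff r * (starRingEnd ℂ) (S.coeff s)) else 0 := by
      intro s hs
      rw [← Finset.mul_sum, orth M ω hprim r s (mem_range.mp hr) (mem_range.mp hs)]
      split_ifs <;> ring
    rw [sum_congr rfl h3, Finset.sum_ite_eq (range M) r, if_pos hr]
  rw [sum_congr rfl h2, Finset.mul_sum]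

end Vale.Agent.Lib.P110
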