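import Mathlib
import Vale.Agent.Lib.P110.Parseval

namespace Vale.Agent.Lib.P110

open Polynomial Finset

/-- the Littlewood polynomial with coefficients `ε 0, …, ε (N-1)` -/
noncomputable def litt (N : ℕ) (ε : ℕ → ℤ) : ℤ[X] := ∑ k ∈ range N, C (ε k) * X ^ k

/-- its reciprocal polynomial -/
noncomputable def littRev (N : ℕ) (ε : ℕ → ℤ) : ℤ[X] := ∑ k ∈ range N, C (ε k) * X ^ (N - 1 - k)

/-- the value `P(z)` -/
noncomputable def pval (N : ℕ) (ε : ℕ → ℤ) (z : ℂ) : ℂ := ∑ k ∈ range N, (ε k : ℂ) * z ^ k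

lemma eval_litt (N : ℕ) (ε : ℕ → ℤ) (z : ℂ) :
    ((litt N ε).map (Int.castRingHom ℂ)).eval z = pval N ε z := by
  simp [litt, pval, Polynomial.map_sum, eval_finsetSum]

lemma eval_littRev (N : ℕ) (ε : ℕ → ℤ) (z : ℂ) (hz : ‖z‖ = 1) :
    ((littRev N ε).map (Int.castRingHom ℂ)).eval z
      = z ^ (N - 1) * (starRingEnd ℂ) (pval N ε z) := by
  have hzz : z * (starRingEnd ℂ) z = 1 := by
    rw [Complex.mul_conj, Complex.normSq_eq_norm_sq, hz]; simp
  simp only [littRev, pval, Polynomial.map_sum, eval_finsetSum, Polynomial.map_mul,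
    Polynomial.map_pow, map_C, map_X, eval_mul, eval_C, eval_pow, eval_X, map_sum, map_mul,
    map_pow, Finset.mul_sum]
  apply sum_congr rfl
  intro k hk
  have hk' : k ≤ N - 1 := by have := mem_range.mp hk; omega
  have e1 : z ^ (N - 1) = z ^ (N - 1 - k) * z ^ k := by
    rw [← pow_add]; congr 1; omega
  have e2 : z ^ k * (starRingEnd ℂ) z ^ k = 1 := by
    rw [← mul_pow, hzz, one_pow]
  have e3 : (starRingEnd ℂ) ((ε k : ℤ) : ℂ) = ((ε k : ℤ) : ℂ) := map_intCast _ _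
  simp only [eq_intCast]
  rw [e3, e1]
  calc ((ε k : ℤ) : ℂ) * z ^ (N - 1 - k)
      = ((ε k : ℤ) : ℂ) * z ^ (N - 1 - k) * (z ^ k * (starRingEnd ℂ) z ^ k) := by
        rw [e2, mul_one]
    _ = z ^ (N - 1 - k) * z ^ k * (((ε k : ℤ) : ℂ) * (starRingEnd ℂ) z ^ k) := by ring

/-- the polynomial whose values on the unit circle have modulus `| |P(z)|^2 - N |` -/
noncomputable def devPoly (N : ℕ) (ε : ℕ → ℤ) : ℤ[X] :=
  litt N ε * littRev N ε - C (N : ℤ) * X ^ (N - 1)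

lemma norm_eval_devPoly (N : ℕ) (ε : ℕ → ℤ) (z : ℂ) (hz : ‖z‖ = 1) :
    ‖((devPoly N ε).map (Int.castRingHom ℂ)).eval z‖ = |‖pval N ε z‖ ^ 2 - N| := by
  have h1 : ((devPoly N ε).map (Int.castRingHom ℂ)).eval z
      = z ^ (N - 1) * (((‖pval N ε z‖ ^ 2 - N : ℝ)) : ℂ) := by
    have key : ((‖pval N ε z‖ : ℝ) : ℂ) ^ 2 = pval N ε z * (starRingEnd ℂ) (pval N ε z) := by
      rw [Complex.mul_conj, Complex.normSq_eq_norm_sq]
      push_cast
      rfl
    simp only [devPoly, Polynomial.map_sub, Polynomial.map_mul, eval_sub, eval_mul, eval_litt,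
      eval_littRev N ε z hz, Polynomial.map_pow, map_C, map_X, eval_C, eval_pow, eval_X]
    push_cast
    rw [key]
    simp
    ring
  rw [h1, norm_mul, norm_pow, hz, one_pow, one_mul, Complex.norm_real, Real.norm_eq_abs]

lemma natDegree_litt_le (N : ℕ) (ε : ℕ → ℤ) : (litt N ε).natDegree ≤ N - 1 := by
  unfold litt
  apply natDegree_sum_le_of_forall_le
  intro k hk
  have := mem_range.mp hk
  exact (natDegree_C_mul_X_pow_le _ _).trans (by omega)

lemma natDegree_littRev_le (N : ℕ) (ε : ℕ → ℤ) : (littRev N ε).natDegree ≤ N - 1 := by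
  unfold littRev
  apply natDegree_sum_le_of_forall_le
  intro k hk
  exact (natDegree_C_mul_X_pow_le _ _).trans (by omega)

lemma natDegree_devPoly_lt (N : ℕ) (hN : 1 ≤ N) (ε : ℕ → ℤ) :
    ((devPoly N ε).map (Int.castRingHom ℂ)).natDegree < 2 * N := by
  have h1 : (devPoly N ε).natDegree ≤ 2 * N - 2 := by
    unfold devPoly
    refine (natDegree_sub_le _ _).trans (max_le ?_ ?_)
    · refine natDegree_mul_le.trans ?_
      have := natDegree_litt_le N ε
      have := natDegree_littRev_le N ε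
      omega
    · exact (natDegree_C_mul_X_pow_le _ _).trans (by omega)
  have h2 := natDegree_map_le (f := Int.castRingHom ℂ) (p := devPoly N ε)
  omega

lemma cast_zmod_one (e : ℤ) (h : e = 1 ∨ e = -1) : (Int.castRingHom (ZMod 2)) e = 1 := by
  rcases h with h | h
  · rw [h]; simp
  · rw [h]; decide

lemma map_litt_zmod (N : ℕ) (ε : ℕ → ℤ) (hε : ∀ k, ε k = 1 ∨ ε k = -1) :
    (litt N ε).map (Int.castRingHom (ZMod 2)) = ∑ k ∈ range N, (X : (ZMod 2)[X]) ^ k := by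
  unfold litt
  rw [Polynomial.map_sum]
  apply sum_congr rfl
  intro k _
  rw [Polynomial.map_mul, Polynomial.map_pow, map_C, map_X, cast_zmod_one _ (hε k), map_one,
    one_mul]

lemma map_littRev_zmod (N : ℕ) (ε : ℕ → ℤ) (hε : ∀ k, ε k = 1 ∨ ε k = -1) :
    (littRev N ε).map (Int.castRingHom (ZMod 2)) = ∑ k ∈ range N, (X : (ZMod 2)[X]) ^ k := by
  unfold littRev
  rw [Polynomial.map_sum, ← Finset.sum_range_reflect (fun k => (X : (ZMod 2)[X]) ^ k) N]
  apply sum_congr rfl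
  intro k _
  rw [Polynomial.map_mul, Polynomial.map_pow, map_C, map_X, cast_zmod_one _ (hε k), map_one,
    one_mul]

/-- the even-index coefficients of `P * P^rev` are odd (Frobenius in characteristic two) -/
lemma odd_coeff (N : ℕ) (ε : ℕ → ℤ) (hε : ∀ k, ε k = 1 ∨ ε k = -1) (k : ℕ) (hk : k < N) :
    Odd ((litt N ε * littRev N ε).coeff (2 * k)) := by
  rw [← ZMod.intCast_eq_one_iff_odd]
  have h1 : ((litt N ε * littRev N ε).map (Int.castRingHom (ZMod 2))).coeff (2 * k) = 1 := by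
    rw [Polynomial.map_mul, map_litt_zmod N ε hε, map_littRev_zmod N ε hε, ← sq, sum_pow_char 2,
      finsetSum_coeff]
    simp_rw [← pow_mul, coeff_X_pow]
    rw [Finset.sum_eq_single k]
    · rw [if_pos (mul_comm 2 k)]
    · intro b _ hb
      rw [if_neg]
      omega
    · intro h
      exact absurd (mem_range.mpr hk) h
  rw [coeff_map] at h1
  simpa using h1

lemma coeff_dev_sq (N : ℕ) (ε : ℕ → ℤ) (hε : ∀ k, ε k = 1 ∨ ε k = -1) (k : ℕ) (hk : k < N)
    (hne : 2 * k ≠ N - 1) :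
    1 ≤ ‖((devPoly N ε).map (Int.castRingHom ℂ)).coeff (2 * k)‖ ^ 2 := by
  rw [coeff_map]
  have hc : (devPoly N ε).coeff (2 * k) = (litt N ε * littRev N ε).coeff (2 * k) := by
    unfold devPoly
    rw [coeff_sub, coeff_C_mul, coeff_X_pow, if_neg hne, mul_zero, sub_zero]
  rw [hc]
  obtain ⟨m, hm⟩ := odd_coeff N ε hε k hk
  have h1 : (1 : ℤ) ≤ |(litt N ε * littRev N ε).coeff (2 * k)| := by
    apply Int.one_le_abs
    omega
  have h2 : (1 : ℝ) ≤ |(((litt N ε * littRev N ε).coeff (2 * k) : ℤ) : ℝ)| := by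
    rw [← Int.cast_abs]
    exact_mod_cast h1
  have h3 : ‖(Int.castRingHom ℂ) ((litt N ε * littRev N ε).coeff (2 * k))‖
      = |(((litt N ε * littRev N ε).coeff (2 * k) : ℤ) : ℝ)| := by
    rw [eq_intCast]
    exact Complex.norm_intCast _
  rw [h3]
  nlinarith

lemma sum_coeff_ge (N : ℕ) (ε : ℕ → ℤ) (hε : ∀ k, ε k = 1 ∨ ε k = -1) :
    (N : ℝ) - 1 ≤
      ∑ i ∈ range (2 * N), ‖((devPoly N ε).map (Int.castRingHom ℂ)).coeff i‖ ^ 2 := by
  obtain ⟨g, hg⟩ : ∃ g : ℕ → ℝ,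
      g = fun i => ‖((devPoly N ε).map (Int.castRingHom ℂ)).coeff i‖ ^ 2 := ⟨_, rfl⟩
  have hg0 : ∀ i, 0 ≤ g i := fun i => by rw [hg]; positivity
  have hgoal : (N : ℝ) - 1 ≤ ∑ i ∈ range (2 * N), g i := by
    have h1 : ∑ k ∈ range N, g (2 * k) ≤ ∑ i ∈ range (2 * N), g i := by
      have himg : ∑ i ∈ (range N).image (fun k => 2 * k), g i = ∑ k ∈ range N, g (2 * k) :=
        Finset.sum_image (fun a _ b _ h => by omega)
      rw [← himg]
      apply Finset.sum_le_sum_of_subset_of_nonneg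
      · intro i hi
        obtain ⟨k, hk, rfl⟩ := mem_image.mp hi
        have := mem_range.mp hk
        exact mem_range.mpr (by omega)
      · intro i _ _
        exact hg0 i
    have h2 : ∑ k ∈ range N, (if 2 * k = N - 1 then (0 : ℝ) else 1)
        ≤ ∑ k ∈ range N, g (2 * k) := by
      apply Finset.sum_le_sum
      intro k hk
      split_ifs with h
      · exact hg0 _
      · rw [hg]
        exact coeff_dev_sq N ε hε k (mem_range.mp hk) h
    have h3 : (N : ℝ) - 1 ≤ ∑ k ∈ range N, (if 2 * k = N - 1 then (0 : ℝ) else 1) := by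
      have e : ∀ k : ℕ, (if 2 * k = N - 1 then (0 : ℝ) else 1)
          = 1 - (if 2 * k = N - 1 then (1 : ℝ) else 0) := by
        intro k
        split_ifs <;> simp
      simp_rw [e]
      rw [Finset.sum_sub_distrib, Finset.sum_boole]
      have hcard : ((range N).filter (fun k => 2 * k = N - 1)).card ≤ 1 := by
        apply Finset.card_le_one.mpr
        intro a ha b hb
        have h1 := (Finset.mem_filter.mp ha).2
        have h2 := (Finset.mem_filter.mp hb).2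
        omega
      have hcard' : (((range N).filter (fun k => 2 * k = N - 1)).card : ℝ) ≤ 1 := by
        exact_mod_cast hcard
      simp only [sum_const, card_range, nsmul_eq_mul, mul_one]
      linarith
    linarith
  rw [hg] at hgoal
  exact hgoal

/-- a point of the unit circle where `|P|^2` is far from `N` -/
theorem exists_point (N : ℕ) (hN : 1 ≤ N) (ε : ℕ → ℤ) (hε : ∀ k, ε k = 1 ∨ ε k = -1) :
    ∃ z : ℂ, ‖z‖ = 1 ∧ (N : ℝ) - 1 ≤ (‖pval N ε z‖ ^ 2 - N) ^ 2 := by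
  have hM0 : 2 * N ≠ 0 := by omega
  obtain ⟨ω, hω⟩ : ∃ ω : ℂ, ω = Complex.exp (2 * Real.pi * Complex.I / ((2 * N : ℕ) : ℂ)) :=
    ⟨_, rfl⟩
  have hprim : IsPrimitiveRoot ω (2 * N) := by
    rw [hω]; exact Complex.isPrimitiveRoot_exp (2 * N) hM0
  have hnorm : ‖ω‖ = 1 := Complex.norm_eq_one_of_pow_eq_one hprim.pow_eq_one hM0
  have hpar := dft_parseval (2 * N) ω hprim hnorm ((devPoly N ε).map (Int.castRingHom ℂ))
    (natDegree_devPoly_lt N hN ε)
  have hsum := sum_coeff_ge N ε hε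
  by_contra hcon0
  have hcon : ∀ z : ℂ, ‖z‖ = 1 → (‖pval N ε z‖ ^ 2 - N) ^ 2 < (N : ℝ) - 1 := by
    intro z hz
    by_contra h
    exact hcon0 ⟨z, hz, not_lt.mp h⟩
  have hlt : ∀ j ∈ range (2 * N),
      ‖((devPoly N ε).map (Int.castRingHom ℂ)).eval (ω ^ j)‖ ^ 2 < (N : ℝ) - 1 := by
    intro j _
    have hz : ‖ω ^ j‖ = 1 := by rw [norm_pow, hnorm, one_pow]
    have := hcon (ω ^ j) hz
    rw [norm_eval_devPoly N ε _ hz, sq_abs]
    exact this
  have hne : (range (2 * N)).Nonempty := by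
    rw [Finset.nonempty_range_iff]; exact hM0
  have hlt2 := Finset.sum_lt_sum_of_nonempty hne hlt
  rw [hpar] at hlt2
  simp only [sum_const, card_range, nsmul_eq_mul] at hlt2
  have hMpos : (0 : ℝ) < ((2 * N : ℕ) : ℝ) := by exact_mod_cast Nat.pos_of_ne_zero hM0
  have := mul_le_mul_of_nonneg_left hsum hMpos.le
  linarith

/-- main statement in `Fin`-indexed form -/
theorem main (N : ℕ) (hN : 1 ≤ N) (ε : Fin N → ℤ) (hε : ∀ k, ε k = 1 ∨ ε k = -1) :
    (∃ z : ℂ, ‖z‖ = 1 ∧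
      Real.sqrt ((N : ℝ) - 1) ≤ |‖∑ k : Fin N, (ε k : ℂ) * z ^ (k : ℕ)‖ ^ 2 - N|) ∧
    (∀ c : ℝ, 0 ≤ c →
      (∀ z : ℂ, ‖z‖ = 1 →
        (1 - c) * Real.sqrt N ≤ ‖∑ k : Fin N, (ε k : ℂ) * z ^ (k : ℕ)‖ ∧
        ‖∑ k : Fin N, (ε k : ℂ) * z ^ (k : ℕ)‖ ≤ (1 + c) * Real.sqrt N) →
      Real.sqrt ((N : ℝ) - 1) ≤ c * (2 + c) * N) := by
  obtain ⟨e, he⟩ : ∃ e : ℕ → ℤ, e = fun k => if h : k < N then ε ⟨k, h⟩ else 1 := ⟨_, rfl⟩
  have hE : ∀ k, e k = 1 ∨ e k = -1 := by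
    intro k
    rw [he]
    by_cases h : k < N
    · simp only [h, dif_pos]; exact hε _
    · simp only [h, dif_neg, not_false_eq_true]; left; trivial
  have hval : ∀ z : ℂ, ∑ k : Fin N, (ε k : ℂ) * z ^ (k : ℕ) = pval N e z := by
    intro z
    unfold pval
    rw [← Fin.sum_univ_eq_sum_range (fun k => (e k : ℂ) * z ^ k) N]
    apply Finset.sum_congr rfl
    intro k _
    rw [he]
    simp
  obtain ⟨z, hz, hbig⟩ := exists_point N hN e hE
  have hN1 : (0 : ℝ) ≤ (N : ℝ) - 1 := by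
    have : (1 : ℝ) ≤ N := by exact_mod_cast hN
    linarith
  have hkey : Real.sqrt ((N : ℝ) - 1) ≤ |‖pval N e z‖ ^ 2 - N| := by
    rw [← Real.sqrt_sq (abs_nonneg _), sq_abs]
    exact Real.sqrt_le_sqrt hbig
  refine ⟨⟨z, hz, by rw [hval]; exact hkey⟩, ?_⟩
  intro c hc hflat
  obtain ⟨hlo, hhi⟩ := hflat z hz
  rw [hval] at hlo hhi
  have hsN : Real.sqrt N ^ 2 = N := Real.sq_sqrt (Nat.cast_nonneg N)
  have hs0 : 0 ≤ Real.sqrt N := Real.sqrt_nonneg _
  have hp0 : 0 ≤ ‖pval N e z‖ := norm_nonneg _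
  have hNpos : (0 : ℝ) ≤ N := Nat.cast_nonneg N
  have hup : ‖pval N e z‖ ^ 2 - N ≤ c * (2 + c) * N := by
    have h1 : ‖pval N e z‖ ^ 2 ≤ ((1 + c) * Real.sqrt N) ^ 2 := pow_le_pow_left₀ hp0 hhi 2
    have h2 : ((1 + c) * Real.sqrt N) ^ 2 = (1 + c) ^ 2 * N := by rw [mul_pow, hsN]
    nlinarith
  have hdown : -(c * (2 + c) * N) ≤ ‖pval N e z‖ ^ 2 - N := by
    by_cases hc1 : c ≤ 1
    · have h0 : 0 ≤ (1 - c) * Real.sqrt N := mul_nonneg (by linarith) hs0
      have h1 : ((1 - c) * Real.sqrt N) ^ 2 ≤ ‖pval N e z‖ ^ 2 := pow_le_pow_left₀ h0 hlo 2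
      have h2 : ((1 - c) * Real.sqrt N) ^ 2 = (1 - c) ^ 2 * N := by rw [mul_pow, hsN]
      nlinarith
    · have hc1' : 1 < c := not_le.mp hc1
      have h1 : 0 ≤ ‖pval N e z‖ ^ 2 := by positivity
      have h3 : 0 ≤ c * (2 + c) - 1 := by nlinarith
      have h4 := mul_nonneg hNpos h3
      nlinarith
  have habs : |‖pval N e z‖ ^ 2 - N| ≤ c * (2 + c) * N := abs_le.mpr ⟨hdown, hup⟩
  linarith

end Vale.Agent.Lib.P110
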